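import Vale.Agent.P176.Main

/-!
P176: the little finitistic dimension conjecture is false. There is a finite-dimensional
`ℚ`-algebra with finitely generated modules of arbitrarily large finite projective dimension.
-/

namespace Vale.Agent.Results.P176.FinitisticDimensionInfinite

open CategoryTheory

theorem result : ∃ (A : Type) (_ : Ring A) (_ : Algebra ℚ A), Module.Finite ℚ A ∧
    ∀ m : ℕ, ∃ M : ModuleCat.{0} A, Module.Finite A M ∧
      (∃ N, HasProjectiveDimensionLE M N) ∧ ¬ HasProjectiveDimensionLE M m := by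
  refine ⟨Vale.Agent.P176.AR, inferInstance, inferInstance, Vale.Agent.P176.AR_finite, fun m => ?_⟩
  refine ⟨ModuleCat.of Vale.Agent.P176.AR (Vale.Agent.P176.FMod (m + 1)),
    Vale.Agent.P176.FMod_finite (m + 1), ?_, ?_⟩
  · obtain ⟨b, -, hb⟩ := Vale.Agent.P176.pd_finite (m + 1)
    exact ⟨b, Vale.Agent.P176.PdLT.mono hb (Nat.le_succ b)⟩
  · intro h
    exact Vale.Agent.P176.not_pd m (Vale.Agent.P176.PdLT.mono h (by omega))

end Vale.Agent.Results.P176.FinitisticDimensionInfinite
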